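import Vale.Agent.P113.Main

open Set Vale.Agent.P113

/-- Halting detection by particle trajectories of forced Navier-Stokes flows from rest. -/
theorem Vale.Agent.Results.P113.A_full.result (ν : ℝ) (hν : 0 < ν) (hc : IsComputableReal ν) :
    ∃ (a : V) (O : Set (Fin 3 → UnitAddCircle))
      (f : (M : TM) → List (Fin (M.nS + 1)) → ℝ → V → V)
      (C : (ℕ × ℕ × ℕ × List Bool × List (List (ℕ × ℕ × ℕ))) × List ℕ → Nat.Partrec.Code)
      (T₀ : ℝ),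
      IsOpen O ∧ Computable C ∧ 0 ≤ T₀ ∧
      (∀ M w, ContDiff ℝ (⊤ : ℕ∞) (fun z : ℝ × V => f M w z.1 z.2) ∧ (∀ t, Per (f M w t)) ∧
        Computes (C (M.code, w.map Fin.val)) (f M w)) ∧
      (∀ M, ∃ P : ℝ, 0 < P ∧ ∀ w t x, T₀ ≤ t → f M w (t + P) x = f M w t x) ∧
      (∀ M w w' t x, T₀ ≤ t → f M w t x = f M w' t x) ∧
      ∀ M w, ∃ (u : ℝ → V → V) (p : ℝ → V → ℝ),
        ContDiff ℝ (⊤ : ℕ∞) (fun z : ℝ × V => u z.1 z.2) ∧
        ContDiff ℝ (⊤ : ℕ∞) (fun z : ℝ × V => p z.1 z.2) ∧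
        (∀ T, 0 < T → IsClassical ν (f M w) T u p) ∧
        (∀ T, 0 < T → ∀ v q, IsClassical ν (f M w) T v q →
          ∀ t ∈ Icc 0 T, v t = u t ∧ q t = p t) ∧
        (∃ X, IsTrajectory u a X) ∧
        ∀ X, IsTrajectory u a X →
          ((∃ t, 0 ≤ t ∧ (fun i => ((X t i : ℝ) : UnitAddCircle)) ∈ O) ↔ M.Halts w) :=
  main ν hν hc
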